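import Vale.Agent.P177.Pos.Len

/-!
The smallness of `C/((x) + γ^(c/q))` for the normalized length on the modules over `W(C)`.
-/

namespace Vale.Agent.P177.Pos

open Vale.Agent.P202.Mix Vale.Agent.P202.Mix.UL IsLocalRing
open scoped ENNReal

universe u

variable {p : ℕ} [Fact p.Prime] {k : Type u} [Field k] [CharP k p] {r : ℕ}

theorem ccV_te {r0 : ℕ} (d : PExt.{u} p k r r0) (c : d.C) :
    ccV d (WittVector.teichmuller p c) = Ideal.Quotient.mk (vI p k r d.C) c := by
  change Ideal.Quotient.mk _ (WittVector.constantCoeff _) = _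
  rw [WittVector.constantCoeff_apply, WittVector.teichmuller_coeff_zero]

theorem ker_constantCoeff (C : Type u) [CommRing C] [CharP C p] [PerfectRing C p] :
    RingHom.ker (WittVector.constantCoeff (p := p) : WittVector p C →+* C) =
      Ideal.span {(p : WittVector p C)} := by
  ext x
  rw [RingHom.mem_ker, WittVector.constantCoeff_apply,
    WittVector.mem_span_p_iff_coeff_zero_eq_zero]

/-- the kernel of `W(C) → C/(x)`. -/
theorem ker_ccV {r0 : ℕ} (d : PExt.{u} p k r r0) :
    RingHom.ker (ccV d) = Ideal.span {(p : WittVector p d.C)} ⊔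
      Ideal.span (Set.range fun l : Fin (r + 1) => WittVector.teichmuller p (vC p k r d.C l)) := by
  have h1 : RingHom.ker (ccV d) =
      (vI p k r d.C).comap (WittVector.constantCoeff (p := p) : WittVector p d.C →+* d.C) := by
    rw [ccV, ← RingHom.comap_ker, Ideal.mk_ker]
  have h2 : vI p k r d.C = (Ideal.span (Set.range fun l : Fin (r + 1) =>
      WittVector.teichmuller p (vC p k r d.C l))).map
        (WittVector.constantCoeff (p := p) : WittVector p d.C →+* d.C) := by
    rw [Ideal.map_span, ← Set.range_comp]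
    congr 2
  rw [h1, h2, Ideal.comap_map_of_surjective' _ (constantCoeff_surjective d.C),
    ker_constantCoeff, sup_comm]

/-- P202-SMALL for the lengths on the `W(C)`-modules. -/
theorem small {r0 : ℕ} (d : PExt.{u} p k r r0) (L : AddLen (WittVector p d.C))
    (hL : L.len (WittVector p d.C ⧸ RingHom.ker (ccV d)) = 1)
    (g : R0 k r) (Cg : ℕ) (hCg : ∀ q c : ℕ, 1 ≤ q → 1 ≤ c →
      (q : ℝ≥0∞) * ENat.toENNReal (Module.length (R0 k r) (R0 k r ⧸ Ideal.span
        ({(MvPowerSeries.X 0 : R0 k r), g ^ c} ∪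
          Set.range fun i : Fin r => (MvPowerSeries.X i.succ : R0 k r) ^ q))) ≤
        (c * Cg * q ^ r : ℕ))
    (a : ℕ) (x γ : d.C) (hγ : γ = tC p k r d.C ^ a *
      (algebraMap (Rp p k r) d.C (PerfectClosure.of (R0 k r) p g) + rt p 1 (tC p k r d.C) * x))
    (e c : ℕ) (hc : 1 ≤ c) :
    L.len (WittVector p d.C ⧸ (RingHom.ker (ccV d) ⊔
      Ideal.span {WittVector.teichmuller p (rt p e γ) ^ c})) ≤
      (p * c * (a + Cg) : ℕ) / (p : ℝ≥0∞) ^ e := by
  have hp1 : 1 ≤ p := (Fact.out : p.Prime).one_lt.le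
  set φe : R0 k r →+* d.C := (lsRt p e).comp (phi0 d) with hφe
  set mk := Ideal.Quotient.mk (vI p k r d.C) with hmkdef
  have hmk : Function.Surjective mk := Ideal.Quotient.mk_surjective
  have hXl : ∀ l, φe (MvPowerSeries.X l) ^ p ^ e = vC p k r d.C l := fun l => lsRt_pow p e _
  have hx0 : ∀ l, mk (vC p k r d.C l) = 0 := fun l =>
    Ideal.Quotient.eq_zero_iff_mem.mpr (Ideal.subset_span ⟨l, rfl⟩)
  have hmap : ∀ K : Ideal (R0 k r), (∀ j, (MvPowerSeries.X j : R0 k r) ^ p ^ e ∈ K) →
      ∀ y, mk y ∈ K.map (mk.comp φe) → y ∈ K.map φe := by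
    intro K hK y hy
    rw [← Ideal.map_map, ← Ideal.mem_comap, Ideal.comap_map_of_surjective' _ hmk, hmkdef,
      Ideal.mk_ker] at hy
    have h1 : vI p k r d.C ≤ K.map φe := by
      rw [vI, Ideal.span_le]
      rintro _ ⟨l, rfl⟩
      rw [SetLike.mem_coe, ← hXl, ← map_pow]
      exact Ideal.mem_map_of_mem _ (hK l)
    rwa [sup_eq_left.mpr h1] at hy
  have key := ls_main (lsRes L (ccV d)) (mk.comp φe) (p ^ e) (Nat.one_le_pow _ _ hp1) (by
      intro l
      rw [RingHom.comp_apply, ← map_pow, hXl, hx0]) (by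
      intro K K' f hK h w hw
      obtain ⟨y, rfl⟩ := hmk w
      rw [RingHom.comp_apply, ← map_mul] at hw
      have h1 := hmap K hK _ hw
      have h2 := ls_colon_C d e K K' f h y h1
      rw [← Ideal.map_map]
      exact Ideal.mem_map_of_mem _ h2) (by
      rw [lsRes_len L _ (ccV_surjective d), ← RingHom.ker_eq_comap_bot, hL]) g Cg hCg p c a hp1 hc
    (mk (rt p e γ)) (mk (rt p e (phi0 d g + rt p 1 (tC p k r d.C) * x))) (mk (rt p e x) ^ p) (by
      have h1 : rt p 1 (tC p k r d.C) ^ p = tC p k r d.C := by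
        have := rt_pow_self p d.C (tC p k r d.C) 1
        rwa [pow_one] at this
      change mk (lsRt p e (phi0 d g + rt p 1 (tC p k r d.C) * x)) ^ p = mk (lsRt p e (phi0 d g)) ^ p +
        mk (lsRt p e (tC p k r d.C)) * mk (lsRt p e x) ^ p
      rw [← map_pow, ← map_pow, add_pow_char, mul_pow, h1, map_add, map_add, map_mul, map_mul,
        map_pow, map_pow, map_pow, map_pow]) (by
      rw [hγ]
      change mk (lsRt p e (tC p k r d.C ^ a * (phi0 d g + rt p 1 (tC p k r d.C) * x))) =
        mk (lsRt p e (tC p k r d.C)) ^ a * mk (lsRt p e (phi0 d g + rt p 1 (tC p k r d.C) * x))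
      rw [map_mul, map_mul, map_pow, map_pow])
  have hJ : (Ideal.span {mk (rt p e γ) ^ c}).comap (ccV d) = RingHom.ker (ccV d) ⊔
      Ideal.span {WittVector.teichmuller p (rt p e γ) ^ c} := by
    have h1 : Ideal.span {mk (rt p e γ) ^ c} =
        (Ideal.span {WittVector.teichmuller p (rt p e γ) ^ c}).map (ccV d) := by
      rw [Ideal.map_span, Set.image_singleton, map_pow, ccV_te]
    rw [h1, Ideal.comap_map_of_surjective' _ (ccV_surjective d), sup_comm]
  rw [lsRes_len L _ (ccV_surjective d), hJ] at key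
  push_cast at key ⊢
  exact key

end Vale.Agent.P177.Pos
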