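import Vale.Agent.P177.SL.ProdW
import Vale.Agent.P177.Pos.Small

/-!
The mass of a quotient of the Witt vectors of a product of rings, in terms of the components.
-/

namespace Vale.Agent.P177.Pos

open Vale.Agent.P202.Mix Vale.Agent.P177.SL Function TensorProduct Filter
open scoped ENNReal Topology

universe u

section bc

variable {R R' : Type u} [CommRing R] [CommRing R'] [Algebra R R'] [Module.Flat R R']
  (L : AddLen R')

/-- flat base change of `η M`. -/
theorem bcLen_etaSub (η : R) (M : Type u) [AddCommGroup M] [Module R M] :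
    (bcLen R L).len (etaSub η M) = L.len (etaSub (algebraMap R R' η) (R' ⊗[R] M)) := by
  change L.len (R' ⊗[R] (etaSub η M)) = _
  let i : etaSub η M →ₗ[R] M := (etaSub η M).subtype
  let s : M →ₗ[R] etaSub η M := LinearMap.rangeRestrict (LinearMap.lsmul R M η)
  have hi : Injective (i.baseChange R') := by
    rw [LinearMap.baseChange_eq_ltensor]
    exact Module.Flat.lTensor_preserves_injective_linearMap i (Submodule.injective_subtype _)
  have hs : Surjective (s.baseChange R') := by
    rw [LinearMap.baseChange_eq_ltensor]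
    exact LinearMap.lTensor_surjective R' (LinearMap.surjective_rangeRestrict _)
  have hc : ∀ z : R' ⊗[R] M, i.baseChange R' (s.baseChange R' z) = algebraMap R R' η • z := by
    intro z
    induction z with
    | zero => rw [map_zero, map_zero, smul_zero]
    | tmul a x =>
      rw [LinearMap.baseChange_tmul, LinearMap.baseChange_tmul, TensorProduct.smul_tmul',
        algebraMap_smul, TensorProduct.smul_tmul]
      rfl
    | add x y hx hy => rw [map_add, map_add, hx, hy, smul_add]
  refine len_congr L (LinearEquiv.ofInjective (i.baseChange R') hi ≪≫ₗ LinearEquiv.ofEq _ _ ?_)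
  ext z
  constructor
  · rintro ⟨y, rfl⟩
    obtain ⟨w, rfl⟩ := hs y
    exact ⟨w, (hc w).symm⟩
  · rintro ⟨w, rfl⟩
    exact ⟨s.baseChange R' w, hc w⟩

theorem etaSub_congr {R : Type u} [CommRing R] (L : AddLen R) (η : R) {M N : Type u}
    [AddCommGroup M] [Module R M] [AddCommGroup N] [Module R N] (f : M ≃ₗ[R] N) :
    L.len (etaSub η M) = L.len (etaSub η N) := by
  refine len_congr L (f.submoduleMap (etaSub η M) ≪≫ₗ LinearEquiv.ofEq _ _ ?_)
  exact etaSub_map η f.toLinearMap f.surjective

/-- the base change of a quotient. -/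
theorem bcLen_quot (I : Ideal R) :
    (bcLen R L).len (R ⧸ I) = L.len (R' ⧸ I.map (algebraMap R R')) :=
  (len_congr L (Algebra.TensorProduct.quotIdealMapEquivTensorQuot R' I).toLinearEquiv).symm

theorem bcLen_etaSub_quot (η : R) (I : Ideal R) :
    (bcLen R L).len (etaSub η (R ⧸ I)) =
      L.len (etaSub (algebraMap R R' η) (R' ⧸ I.map (algebraMap R R'))) := by
  rw [bcLen_etaSub]
  exact (etaSub_congr L _ (Algebra.TensorProduct.quotIdealMapEquivTensorQuot R' I).toLinearEquiv).symm

end bc

section mass

variable (p : ℕ) [Fact p.Prime] {ι : Type u} (C : ι → Type u) [∀ e, CommRing (C e)]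

theorem compLen_etaSub (e : ι) (L : AddLen (WittVector p (C e)))
    (η : WittVector p (∀ e, C e)) (M : Type u) [AddCommGroup M]
    [Module (WittVector p (∀ e, C e)) M] :
    letI := (prW p C e).toAlgebra
    (compLen p C e L).len (etaSub η M) =
      L.len (etaSub (prW p C e η) (WittVector p (C e) ⊗[WittVector p (∀ e, C e)] M)) := by
  let _ := (prW p C e).toAlgebra
  have _ := flat_prW p C e
  exact bcLen_etaSub L η M

theorem compLen_quot (e : ι) (L : AddLen (WittVector p (C e)))
    (I : Ideal (WittVector p (∀ e, C e))) :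
    (compLen p C e L).len (WittVector p (∀ e, C e) ⧸ I) =
      L.len (WittVector p (C e) ⧸ I.map (prW p C e)) := by
  let _ := (prW p C e).toAlgebra
  have _ := flat_prW p C e
  exact bcLen_quot L I

theorem compLen_etaSub_quot (e : ι) (L : AddLen (WittVector p (C e)))
    (η : WittVector p (∀ e, C e)) (I : Ideal (WittVector p (∀ e, C e))) :
    (compLen p C e L).len (etaSub η (WittVector p (∀ e, C e) ⧸ I)) =
      L.len (etaSub (prW p C e η) (WittVector p (C e) ⧸ I.map (prW p C e))) := by
  let _ := (prW p C e).toAlgebra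
  have _ := flat_prW p C e
  exact bcLen_etaSub_quot L η I

theorem massU_quot (U : Ultrafilter ι) (L : ∀ e, AddLen (WittVector p (C e)))
    (I : Ideal (WittVector p (∀ e, C e))) :
    (massU p C U L).len (WittVector p (∀ e, C e) ⧸ I) =
      ulim U fun e => (L e).len (WittVector p (C e) ⧸ I.map (prW p C e)) :=
  ulim_congr U (Eventually.of_forall fun e => compLen_quot p C e (L e) I)

theorem massU_etaSub_quot (U : Ultrafilter ι) (L : ∀ e, AddLen (WittVector p (C e)))
    (η : WittVector p (∀ e, C e)) (I : Ideal (WittVector p (∀ e, C e))) :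
    (massU p C U L).len (etaSub η (WittVector p (∀ e, C e) ⧸ I)) =
      ulim U fun e => (L e).len (etaSub (prW p C e η) (WittVector p (C e) ⧸ I.map (prW p C e))) :=
  ulim_congr U (Eventually.of_forall fun e => compLen_etaSub_quot p C e (L e) η I)

/-- upper bound for the mass of a quotient. -/
theorem etaLen_massU_quot_le (U : Ultrafilter ι) (L : ∀ e, AddLen (WittVector p (C e)))
    (η : WittVector p (∀ e, C e)) (I : Ideal (WittVector p (∀ e, C e))) (b : ℝ≥0∞)
    (h : ∀ᶠ e in (U : Filter ι), (L e).len (WittVector p (C e) ⧸ I.map (prW p C e)) ≤ b) :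
    (etaLen (massU p C U L) η).len (WittVector p (∀ e, C e) ⧸ I) ≤ b := by
  refine (etaLen_le _ _ _).trans ?_
  rw [massU_quot]
  exact ulim_le U h

/-- lower bound for the mass of a quotient. -/
theorem le_etaLen_massU_quot (U : Ultrafilter ι) (L : ∀ e, AddLen (WittVector p (C e)))
    (η : WittVector p (∀ e, C e)) (I : Ideal (WittVector p (∀ e, C e))) (b : ℝ≥0∞)
    (h : ∀ c : ℕ, ∀ᶠ e in (U : Filter ι),
      b ≤ (L e).len (etaSub (prW p C e η ^ c) (WittVector p (C e) ⧸ I.map (prW p C e)))) :
    b ≤ (etaLen (massU p C U L) η).len (WittVector p (∀ e, C e) ⧸ I) := by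
  refine le_iInf fun c => ?_
  rw [massU_etaSub_quot]
  refine le_ulim U ((h c).mono fun e he => ?_)
  rw [map_pow]
  exact he

end mass

section PExt

variable {p : ℕ} [Fact p.Prime] {k : Type u} [Field k] [CharP k p] {r : ℕ}

/-- the ideal `(p, [t], [u_1], .., [u_r])` of the Witt vectors of the product. -/
noncomputable def vProd {ι : Type u} {r0 : ι → ℕ} (d : ∀ e, PExt.{u} p k r (r0 e)) :
    Ideal (WittVector p (∀ e, (d e).C)) :=
  Ideal.span {(p : WittVector p (∀ e, (d e).C))} ⊔ Ideal.span (Set.range fun l : Fin (r + 1) =>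
    WittVector.teichmuller p (fun e => UL.vC p k r (d e).C l))

theorem vProd_map {ι : Type u} {r0 : ι → ℕ} (d : ∀ e, PExt.{u} p k r (r0 e)) (e : ι) :
    (vProd d).map (prW p (fun e => (d e).C) e) = RingHom.ker (ccV (d e)) := by
  rw [vProd, Ideal.map_sup, Ideal.map_span, Ideal.map_span, Set.image_singleton, map_natCast,
    ← Set.range_comp, ker_ccV]
  congr 3
  funext l
  exact prW_teichmuller p (fun e => (d e).C) e _

/-- THE NUMBER: the mass of `C/(t, u)` is at most one. -/
theorem mass_vProd_le {ι : Type u} {r0 : ι → ℕ} (d : ∀ e, PExt.{u} p k r (r0 e))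
    (U : Ultrafilter ι) (L : ∀ e, AddLen (WittVector p (d e).C))
    (hL : ∀ e, (L e).len (WittVector p (d e).C ⧸ RingHom.ker (ccV (d e))) = 1)
    (η : WittVector p (∀ e, (d e).C)) :
    (etaLen (massU p (fun e => (d e).C) U L) η).len
      (WittVector p (∀ e, (d e).C) ⧸ vProd d) ≤ 1 := by
  refine etaLen_massU_quot_le p (fun e => (d e).C) U L η (vProd d) 1
    (Eventually.of_forall fun e => ?_)
  rw [vProd_map, hL]

/-- THE NUMBER: the mass of `C/(t, u)` is positive. -/
theorem le_mass_vProd {ι : Type u} {r0 : ι → ℕ} (d : ∀ e, PExt.{u} p k r (r0 e))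
    (U : Ultrafilter ι) (L : ∀ e, AddLen (WittVector p (d e).C))
    (η : WittVector p (∀ e, (d e).C)) (b : ℝ≥0∞)
    (h : ∀ c : ℕ, ∀ᶠ e in (U : Filter ι), b ≤ (L e).len
      (etaSub (prW p (fun e => (d e).C) e η ^ c)
        (WittVector p (d e).C ⧸ RingHom.ker (ccV (d e))))) :
    b ≤ (etaLen (massU p (fun e => (d e).C) U L) η).len
      (WittVector p (∀ e, (d e).C) ⧸ vProd d) := by
  refine le_etaLen_massU_quot p (fun e => (d e).C) U L η (vProd d) b fun c => ?_
  refine (h c).mono fun e he => ?_
  rw [vProd_map]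
  exact he

end PExt

end Vale.Agent.P177.Pos
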