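import Vale.Agent.P202.Mix.Defs
import Vale.Agent.P202.CharZero.MM

/-!
The homomorphism `W(k)[[x_0, .., x_r]] → W(k[[x_0, .., x_r]])`, `x_i ↦ [x_i]`.
-/

namespace Vale.Agent.P177.Pos

open MvPowerSeries
open Vale.Agent.P202.CZ
open Vale.Agent.P202.Mix

universe u

section Chi
variable (p : ℕ) [Fact p.Prime] (k : Type u) [Field k] (r : ℕ)

/-- the maximal ideal of `k[[t, u_1, .., u_r]]`. -/
noncomputable abbrev chm : Ideal (R0 k r) := Ideal.span (Set.range X)

/-- the truncations of `k[[t, u_1, .., u_r]]`. -/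
abbrev chQ (n : ℕ) : Type u := R0 k r ⧸ (chm k r) ^ n

/-- constants. -/
noncomputable def chtau (n : ℕ) : WittVector p k →+* WittVector p (chQ k r n) :=
  WittVector.map ((Ideal.Quotient.mk ((chm k r) ^ n)).comp C)

/-- variables. -/
noncomputable def chx (n : ℕ) (i : Fin (r + 1)) : WittVector p (chQ k r n) :=
  WittVector.teichmuller p (Ideal.Quotient.mk ((chm k r) ^ n) (X i))

theorem ch_prod (n : ℕ) (d : Fin (r + 1) →₀ ℕ) (hd : n ≤ d.degree) :
    ∏ i, chx p k r n i ^ d i = 0 := by
  have h1 : ∏ i, chx p k r n i ^ d i = WittVector.teichmuller p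
      (Ideal.Quotient.mk ((chm k r) ^ n) (∏ i, (X i : R0 k r) ^ d i)) := by
    simp only [map_prod, map_pow, chx]
  rw [h1]
  have h2 : (∏ i, (X i : R0 k r) ^ d i) ∈ (chm k r) ^ n := by
    have h3 : (∏ i, (X i : R0 k r) ^ d i) ∈ ∏ i : Fin (r + 1), (chm k r) ^ d i :=
      Ideal.prod_mem_prod fun i _ => Ideal.pow_mem_pow
        (Ideal.subset_span (Set.mem_range_self i)) _
    rw [Finset.prod_pow_eq_pow_sum, ← Finsupp.degree_eq_sum] at h3
    exact Ideal.pow_le_pow_right hd h3
  rw [Ideal.Quotient.eq_zero_iff_mem.2 h2, WittVector.teichmuller_zero]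

theorem ch_eval_zero (n : ℕ) {q : MvPolynomial (Fin (r + 1)) (WittVector p k)}
    (hq : q ∈ MvPolynomial.idealOfVars (Fin (r + 1)) (WittVector p k) ^ n) :
    MvPolynomial.eval₂Hom (chtau p k r n) (chx p k r n) q = 0 := by
  rw [MvPolynomial.mem_pow_idealOfVars_iff] at hq
  rw [MvPolynomial.coe_eval₂Hom, MvPolynomial.eval₂_eq']
  refine Finset.sum_eq_zero fun d hd => ?_
  rw [ch_prod p k r n d (hq d hd), mul_zero]

/-- the truncated homomorphisms. -/
noncomputable def chphi (n : ℕ) : La p k (r + 1) →+* WittVector p (chQ k r n) :=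
  (Ideal.Quotient.lift (MvPolynomial.idealOfVars (Fin (r + 1)) (WittVector p k) ^ n)
    (MvPolynomial.eval₂Hom (chtau p k r n) (chx p k r n))
    (fun _ hq => ch_eval_zero p k r n hq)).comp
      (truncTotalAlgHom (Fin (r + 1)) (WittVector p k) n).toRingHom

theorem chphi_apply (n : ℕ) (f : La p k (r + 1)) :
    chphi p k r n f =
      MvPolynomial.eval₂Hom (chtau p k r n) (chx p k r n) (f.truncTotal n) := rfl

theorem chphi_coe (n : ℕ) (q : MvPolynomial (Fin (r + 1)) (WittVector p k)) :
    chphi p k r n (q : La p k (r + 1)) =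
      MvPolynomial.eval₂Hom (chtau p k r n) (chx p k r n) q := by
  have h := (truncTotalAlgHom (Fin (r + 1)) (WittVector p k) n).commutes q
  have h2 : chphi p k r n (q : La p k (r + 1)) =
      (Ideal.Quotient.lift (MvPolynomial.idealOfVars (Fin (r + 1)) (WittVector p k) ^ n)
    (MvPolynomial.eval₂Hom (chtau p k r n) (chx p k r n))
    (fun _ hq => ch_eval_zero p k r n hq))
      (truncTotalAlgHom (Fin (r + 1)) (WittVector p k) n (algebraMap (MvPolynomial (Fin (r + 1))
        (WittVector p k)) (MvPowerSeries (Fin (r + 1)) (WittVector p k)) q)) := rfl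
  rw [h2, h]
  rfl

theorem chphi_map {m n : ℕ} (hle : m ≤ n) (f : La p k (r + 1)) :
    WittVector.map (Ideal.Quotient.factorPow (chm k r) hle) (chphi p k r n f) =
      chphi p k r m f := by
  have h1 : (WittVector.map (Ideal.Quotient.factorPow (chm k r) hle)).comp
      (MvPolynomial.eval₂Hom (chtau p k r n) (chx p k r n)) =
      MvPolynomial.eval₂Hom (chtau p k r m) (chx p k r m) := by
    refine MvPolynomial.ringHom_ext (fun a => ?_) (fun i => ?_)
    · rw [RingHom.comp_apply, MvPolynomial.eval₂Hom_C, MvPolynomial.eval₂Hom_C]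
      ext j
      simp only [chtau, WittVector.map_coeff, RingHom.comp_apply]
      rfl
    · rw [RingHom.comp_apply, MvPolynomial.eval₂Hom_X', MvPolynomial.eval₂Hom_X', chx, chx,
        WittVector.map_teichmuller]
      rfl
  rw [chphi_apply, ← RingHom.comp_apply, h1, chphi_apply, ← sub_eq_zero, ← map_sub]
  exact ch_eval_zero p k r m (truncTotal_sub_truncTotal_mem_pow_idealOfVars hle (le_refl _) _)

theorem ch_ext {f g : R0 k r}
    (h : ∀ n, Ideal.Quotient.mk ((chm k r) ^ n) f = Ideal.Quotient.mk ((chm k r) ^ n) g) :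
    f = g := by
  ext d
  have h1 := h (d.degree + 1)
  rw [Ideal.Quotient.eq, mem_pow_iff] at h1
  have h2 := h1 d (Nat.lt_succ_self _)
  rwa [map_sub, sub_eq_zero] at h2

theorem ch_extW {f g : WittVector p (R0 k r)}
    (h : ∀ n, WittVector.map (Ideal.Quotient.mk ((chm k r) ^ n)) f =
      WittVector.map (Ideal.Quotient.mk ((chm k r) ^ n)) g) : f = g := by
  ext1 i
  refine ch_ext k r fun n => ?_
  have h1 := congrArg (fun w => WittVector.coeff w i) (h n)
  simpa only [WittVector.map_coeff] using h1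

theorem ch_exists (f : La p k (r + 1)) (i : ℕ) : ∃ L : R0 k r, ∀ n,
    Ideal.Quotient.mk ((chm k r) ^ n) L = (chphi p k r n f).coeff i := by
  have h1 : ∀ n, ∃ a : R0 k r,
      Ideal.Quotient.mk ((chm k r) ^ n) a = (chphi p k r n f).coeff i :=
    fun n => Ideal.Quotient.mk_surjective _
  choose a ha using h1
  obtain ⟨L, hL⟩ : ∃ L : R0 k r, ∀ d, coeff d L = coeff d (a (d.degree + 1)) :=
    ⟨fun d => coeff d (a (d.degree + 1)), fun d => rfl⟩
  refine ⟨L, fun n => ?_⟩
  rw [← ha n, Ideal.Quotient.eq, mem_pow_iff]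
  intro d hd
  rw [map_sub, hL]
  have h2 : a n - a (d.degree + 1) ∈ (chm k r) ^ (d.degree + 1) := by
    rw [← Ideal.Quotient.eq, ha (d.degree + 1), ← chphi_map p k r hd f, WittVector.map_coeff,
      ← ha n]
    rfl
  rw [mem_pow_iff] at h2
  have h3 := h2 d (Nat.lt_succ_self _)
  rw [map_sub, sub_eq_zero] at h3
  rw [h3]
  exact sub_self _

/-- the homomorphism. -/
theorem ch_hom : ∃ ψ : La p k (r + 1) →+* WittVector p (R0 k r), ∀ n f,
    WittVector.map (Ideal.Quotient.mk ((chm k r) ^ n)) (ψ f) = chphi p k r n f := by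
  choose L hL using ch_exists p k r
  have key : ∀ n f, WittVector.map (Ideal.Quotient.mk ((chm k r) ^ n))
      (WittVector.mk p (L f)) = chphi p k r n f := by
    intro n f
    ext i
    rw [WittVector.map_coeff]
    exact hL f i n
  refine ⟨{ toFun := fun f => WittVector.mk p (L f), map_one' := ?_, map_mul' := ?_,
            map_zero' := ?_, map_add' := ?_ }, key⟩
  · exact ch_extW p k r fun n => by rw [key, map_one, map_one]
  · exact fun f g => ch_extW p k r fun n => by rw [key, map_mul, map_mul, key, key]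
  · exact ch_extW p k r fun n => by rw [key, map_zero, map_zero]
  · exact fun f g => ch_extW p k r fun n => by rw [key, map_add, map_add, key, key]

end Chi

section Chi
variable (p : ℕ) [Fact p.Prime] (k : Type u) [Field k] (r : ℕ)

/-- the homomorphism `W(k)[[x_0, .., x_r]] → W(k[[x_0, .., x_r]])`, `x_i ↦ [x_i]`. -/
theorem exists_chi : ∃ χ : La p k (r + 1) →+* WittVector p (R0 k r),
    (∀ i, χ (MvPowerSeries.X i) = WittVector.teichmuller p (MvPowerSeries.X i)) ∧
    (∀ a, χ (MvPowerSeries.C a) = WittVector.map MvPowerSeries.C a) := by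
  obtain ⟨ψ, hψ⟩ := ch_hom p k r
  refine ⟨ψ, fun i => ?_, fun a => ?_⟩
  · refine ch_extW p k r fun n => ?_
    have h1 : (X i : La p k (r + 1)) = ((MvPolynomial.X i : MvPolynomial (Fin (r + 1)) (WittVector p k)) :
        La p k (r + 1)) := (MvPolynomial.coe_X i).symm
    rw [hψ, h1, chphi_coe, MvPolynomial.eval₂Hom_X', WittVector.map_teichmuller]
    rfl
  · refine ch_extW p k r fun n => ?_
    have h1 : (C a : La p k (r + 1)) = ((MvPolynomial.C a : MvPolynomial (Fin (r + 1)) (WittVector p k)) :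
        La p k (r + 1)) := (MvPolynomial.coe_C a).symm
    rw [hψ, h1, chphi_coe, MvPolynomial.eval₂Hom_C]
    ext j
    simp only [chtau, WittVector.map_coeff, RingHom.comp_apply]

end Chi

end Vale.Agent.P177.Pos
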