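import Vale.Agent.P202.Mix.UnitLen
import Vale.Agent.P202.Mix.LenSmall
import Vale.Agent.P202.Mix.LenEst
import Vale.Agent.P177.Pos.Chi

/-!
The normalized additive length on the modules over `W(C)`, `C` a flat integral perfect algebra of
finite rank over the perfection of `k[[x_0, .., x_r]]`, `k` perfect.
-/

namespace Vale.Agent.P177.Pos

open Vale.Agent.P202.Mix Vale.Agent.P202.Mix.UL IsLocalRing
open scoped ENNReal

universe u

variable {p : ℕ} [Fact p.Prime] {k : Type u} [Field k] [CharP k p] {r : ℕ}

/-- the homomorphism `k[[x]] → C`. -/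
noncomputable def phi0 {r0 : ℕ} (d : PExt.{u} p k r r0) : R0 k r →+* d.C :=
  (algebraMap (Rp p k r) d.C).comp (PerfectClosure.of (R0 k r) p)

theorem phi0_X {r0 : ℕ} (d : PExt.{u} p k r r0) (l : Fin (r + 1)) :
    phi0 d (MvPowerSeries.X l) = vC p k r d.C l := rfl

theorem phi0_C {r0 : ℕ} (d : PExt.{u} p k r r0) (y : k) :
    phi0 d (MvPowerSeries.C y) = kC p k r d.C y := rfl

/-- the homomorphism `W(C) → C → C/(x)`. -/
noncomputable def ccV {r0 : ℕ} (d : PExt.{u} p k r r0) :
    WittVector p d.C →+* d.C ⧸ vI p k r d.C :=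
  (Ideal.Quotient.mk (vI p k r d.C)).comp (WittVector.constantCoeff (p := p))

theorem constantCoeff_surjective (C : Type u) [CommRing C] :
    Function.Surjective (WittVector.constantCoeff (p := p) : WittVector p C →+* C) := fun c =>
  ⟨WittVector.teichmuller p c, WittVector.teichmuller_coeff_zero p c⟩

theorem ccV_surjective {r0 : ℕ} (d : PExt.{u} p k r r0) : Function.Surjective (ccV d) :=
  Ideal.Quotient.mk_surjective.comp (constantCoeff_surjective d.C)

/-- a power series is constant modulo the variables. -/
theorem sub_C_mem (f : R0 k r) :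
    f - MvPowerSeries.C (MvPowerSeries.constantCoeff f) ∈
      Ideal.span (Set.range fun l : Fin (r + 1) => (MvPowerSeries.X l : R0 k r)) := by
  have hmax : maximalIdeal (R0 k r) =
      Ideal.span (Set.range fun l : Fin (r + 1) => (MvPowerSeries.X l : R0 k r)) :=
    Vale.Agent.P202.CZ.maximalIdeal_eq
  rw [← hmax, mem_maximalIdeal, mem_nonunits_iff, MvPowerSeries.isUnit_iff_constantCoeff, map_sub,
    MvPowerSeries.constantCoeff_C, sub_self]
  exact not_isUnit_zero

theorem mk_phi0 {r0 : ℕ} (d : PExt.{u} p k r r0) (f : R0 k r) :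
    Ideal.Quotient.mk (vI p k r d.C) (phi0 d f) =
      kCb p k r d.C (MvPowerSeries.constantCoeff f) := by
  have h1 := Ideal.mem_map_of_mem (phi0 d) (sub_C_mem f)
  rw [Ideal.map_span, ← Set.range_comp] at h1
  have h2 : Ideal.span (Set.range (phi0 d ∘ fun l : Fin (r + 1) => (MvPowerSeries.X l : R0 k r)))
      = vI p k r d.C := rfl
  rw [h2, map_sub, ← Ideal.Quotient.eq] at h1
  rw [h1]
  rfl

/-- the residues of the perfection modulo the variables are in the ring generated by the constants
and the roots. -/
theorem range_gen_perfect [PerfectRing k p] {W : Type*} [CommRing W]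
    (ω : Rp p k r →+* W) (hω : ∀ l, ω (xp p k r l) = 0) (G : Subring W)
    (h0 : ∀ y : k, ω (kR p k r y) ∈ G)
    (h2 : ∀ e l, ω (rt p e (xp p k r l)) ∈ G) (g : Rp p k r) : ω g ∈ G := by
  obtain ⟨n, h, hg⟩ := exists_pow_of g
  obtain ⟨B, hB⟩ := exists_box r (p ^ n)
  have h3 := Ideal.mem_map_of_mem (PerfectClosure.of (R0 k r) p) (ps_decomp (p ^ n) B hB h)
  rw [Ideal.map_span, ← Set.range_comp, Ideal.mem_span_range_iff_exists_fun] at h3
  obtain ⟨c, hc⟩ := h3
  have h4 : g = (∑ m ∈ B, rt p n (kR p k r (MvPowerSeries.coeff m h)) *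
      ∏ l, rt p n (xp p k r l) ^ m l) + ∑ l, rt p n (c l) * xp p k r l := by
    refine rt_inj (e := n) ?_
    rw [add_pow_char_pow, sum_pow_char_pow, sum_pow_char_pow, hg]
    have e1 : ∀ m ∈ B, (rt p n (kR p k r (MvPowerSeries.coeff m h)) *
        ∏ l, rt p n (xp p k r l) ^ m l) ^ p ^ n =
        PerfectClosure.of (R0 k r) p (MvPowerSeries.monomial m (MvPowerSeries.coeff m h)) := by
      intro m _
      rw [mul_pow, rt_pow_self, ← Finset.prod_pow, monomial_eq, map_mul, map_prod]
      refine congrArg₂ _ rfl (Finset.prod_congr rfl fun l _ => ?_)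
      rw [← pow_mul, mul_comm, pow_mul, rt_pow_self, map_pow]
      rfl
    have e2 : ∀ l ∈ (Finset.univ : Finset (Fin (r + 1))), (rt p n (c l) * xp p k r l) ^ p ^ n =
        c l * (PerfectClosure.of (R0 k r) p ∘ fun l => (MvPowerSeries.X l : R0 k r) ^ p ^ n) l := by
      intro l _
      rw [mul_pow, rt_pow_self, Function.comp_apply, map_pow]
      rfl
    rw [Finset.sum_congr rfl e1, Finset.sum_congr rfl e2, hc, map_sub, map_sum]
    ring
  rw [h4, map_add, map_sum, map_sum]
  refine add_mem (sum_mem fun m _ => ?_) (sum_mem fun l _ => ?_)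
  · rw [map_mul, map_prod]
    refine mul_mem ?_ (prod_mem fun l _ => ?_)
    · rw [← rt_map]
      exact h0 _
    · rw [map_pow]
      exact pow_mem (h2 _ _) _
  · rw [map_mul, hω, mul_zero]
    exact zero_mem _

/-- exponents with support in `F`. -/
noncomputable def tB {ι : Type*} (F : Finset ι) (q : ℕ) (hq : 0 < q) (φ : F → Fin q) :
    Bx ι q :=
  ⟨Finsupp.embDomain (Function.Embedding.subtype _)
    (Finsupp.equivFunOnFinite.symm fun i => (φ i : ℕ)), fun i => by
      classical
      rw [Finsupp.embDomain_apply]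
      split_ifs with h
      · exact (φ _).2
      · exact hq⟩

theorem tB_injective {ι : Type*} (F : Finset ι) (q : ℕ) (hq : 0 < q) :
    Function.Injective (tB F q hq) := by
  intro φ φ' h
  have h1 := Finsupp.embDomain_injective _ (congrArg Subtype.val h)
  have h2 := Finsupp.equivFunOnFinite.symm.injective h1
  funext i
  exact Fin.ext (congrFun h2 i)

theorem tB_support {ι : Type*} (F : Finset ι) (q : ℕ) (hq : 0 < q) (φ : F → Fin q) :
    ∀ i ∈ (tB F q hq φ).1.support, i ∈ F := by
  intro i hi
  rw [tB, Finsupp.support_embDomain, Finset.mem_map] at hi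
  obtain ⟨j, -, rfl⟩ := hi
  exact j.2

/-- the normalized length on the modules over `W(C)`. -/
theorem exists_len [PerfectRing k p] {r0 : ℕ} (d : PExt.{u} p k r r0) :
    ∃ L : AddLen (WittVector p d.C),
      L.len (WittVector p d.C ⧸ RingHom.ker (ccV d)) = 1 := by
  classical
  obtain ⟨χ, hχX, hχC⟩ := exists_chi p k r
  let S : Type u := La p k (r + 1)
  let W : Type u := WittVector p d.C
  let χW : S →+* W := (WittVector.map (phi0 d)).comp χ
  let _ : Algebra S W := χW.toAlgebra
  let a : Fin (r + 1) → S := fun i => MvPowerSeries.X i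
  have hXW : ∀ i, algebraMap S W (a i) = WittVector.teichmuller p (vC p k r d.C i) := by
    intro i
    change WittVector.map (phi0 d) (χ (MvPowerSeries.X i)) = _
    rw [hχX, WittVector.map_teichmuller, phi0_X]
  obtain ⟨f, hf⟩ := exists_lift p S a (T := W)
    (fun i e => WittVector.teichmuller p (rt p e (vC p k r d.C i)))
    (fun i => by rw [rt_zero_exp, hXW])
    (fun i e => by rw [← map_pow, rt_succ_pow])
  let _ : Algebra (RootAlg p S a) W := f.toRingHom.toAlgebra
  have hst : IsScalarTower S (RootAlg p S a) W :=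
    IsScalarTower.of_algebraMap_eq fun s => (f.commutes s).symm
  obtain ⟨T, hT1, hT2⟩ := exists_rootTower p S a
  let N : Type u := W ⧸ RingHom.ker (ccV d)
  -- the residue map
  let κ : S →+* k := (MvPowerSeries.constantCoeff (σ := Fin (r + 1)) (R := k)).comp
    ((WittVector.constantCoeff (p := p)).comp χ)
  have hccS : ∀ s : S, ccV d (algebraMap S W s) = kCb p k r d.C (κ s) := by
    intro s
    exact mk_phi0 d _
  have hκs : Function.Surjective κ := by
    intro y
    refine ⟨MvPowerSeries.C (WittVector.teichmuller p y), ?_⟩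
    change MvPowerSeries.constantCoeff ((χ (MvPowerSeries.C (WittVector.teichmuller p y))).coeff 0)
      = y
    rw [hχC, WittVector.map_coeff, WittVector.teichmuller_coeff_zero,
      MvPowerSeries.constantCoeff_C]
  have hκm : RingHom.ker κ = maximalIdeal S := by
    have h1 : (RingHom.ker κ).IsMaximal := RingHom.ker_isMaximal_of_surjective κ hκs
    exact IsLocalRing.eq_maximalIdeal h1
  have hκ0 : ∀ s ∈ maximalIdeal S, ccV d (algebraMap S W s) = 0 := by
    intro s hs
    rw [← hκm, RingHom.mem_ker] at hs
    rw [hccS, hs, map_zero]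
  have hmkS : ∀ s ∈ maximalIdeal S, (Ideal.Quotient.mk (RingHom.ker (ccV d))) (algebraMap S W s) = 0 := by
    intro s hs
    rw [Ideal.Quotient.eq_zero_iff_mem, RingHom.mem_ker]
    exact hκ0 s hs
  have hsm : ∀ (y : RootAlg p S a) (z : N),
      y • z = Ideal.Quotient.mk _ (f y) * z := fun y z => Algebra.smul_def y z
  have hsmS : ∀ (s : S) (z : N),
      s • z = Ideal.Quotient.mk _ (algebraMap S W s) * z :=
    fun s z => Algebra.smul_def s z
  have hkill : ∀ s ∈ maximalIdeal S, ∀ x : N, s • x = 0 := by
    intro s hs x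
    rw [hsmS, hmkS s hs]
    exact zero_mul x
  have hlf : LFr S (RootAlg p S a) W N := by
    refine lfr_of_smul_eq_zero _ (maximalIdeal S) ?_ _ fun s hs x => ?_
    · rw [length_residue]
      exact ENat.one_ne_top
    · have h1 := hkill s hs x
      rw [← h1, ← algebraMap_smul W s x]
      congr 1
      exact f.commutes s
  have hL0 : (T.totLen W).len N = T.lam N := by
    rw [T.totLen_eq _ _ hlf, T.lenR_eq]
  -- the homomorphism `C → N`
  let ω : d.C →+* N := (RingHom.quotientKerEquivOfSurjective (ccV_surjective d)).symm.toRingHom.comp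
    (Ideal.Quotient.mk (vI p k r d.C))
  have hωcc : ∀ w : W, ω (WittVector.constantCoeff w) = Ideal.Quotient.mk _ w := by
    intro w
    change (RingHom.quotientKerEquivOfSurjective (ccV_surjective d)).symm (ccV d w) = _
    rw [RingEquiv.symm_apply_eq]
    rfl
  have hωte : ∀ c : d.C, ω c = Ideal.Quotient.mk _ (WittVector.teichmuller p c) := by
    intro c
    rw [← hωcc]
    congr 1
  have hωs : Function.Surjective ω :=
    (RingHom.quotientKerEquivOfSurjective (ccV_surjective d)).symm.surjective.comp
      Ideal.Quotient.mk_surjective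
  have hωr : ∀ i e, ω (rt p e (vC p k r d.C i)) = Ideal.Quotient.mk _ (f (rx p S a i e)) := by
    intro i e
    rw [hωte, hf]
  have hωker : ∀ c, ω c = 0 ↔ c ∈ vI p k r d.C := by
    intro c
    change (RingHom.quotientKerEquivOfSurjective (ccV_surjective d)).symm
      (Ideal.Quotient.mk (vI p k r d.C) c) = 0 ↔ _
    rw [RingEquiv.symm_apply_eq, map_zero, Ideal.Quotient.eq_zero_iff_mem]
  have hωk : ∀ s : S, ω (kC p k r d.C (κ s)) = Ideal.Quotient.mk _ (algebraMap S W s) := by
    intro s
    rw [← hωcc, ← sub_eq_zero, ← map_sub, hωker, ← Ideal.Quotient.eq]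
    exact (hccS s).symm
  -- upper bound
  have hup : T.lam N ≤ r0 := by
    refine lam_le_of_cover T hkill (∅, 0) (fun i => ⟨Finset.empty_subset _, Nat.zero_le _⟩) ?_ ?_
      r0 fun X hX' => ?_
    · rw [hT1, rsub]
      simp
    · rw [hT2]
      simp
    · obtain ⟨s, rfl⟩ := hX'
      choose c hc using hωs
      obtain ⟨v, hv⟩ := d.fin (s.image c)
      refine ⟨fun j => ω (v j), Submodule.span_le.mpr fun x hx => ?_⟩
      have h3 : ∀ y ∈ Submodule.span (Rp p k r) (Set.range v),
          ω y ∈ Submodule.span (RootAlg p S a) (Set.range fun j => ω (v j)) := by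
        intro y hy
        induction hy using Submodule.span_induction with
        | mem y hy =>
          obtain ⟨j, rfl⟩ := hy
          exact Submodule.subset_span ⟨j, rfl⟩
        | zero => rw [map_zero]; exact zero_mem _
        | add y z _ _ hy hz => rw [map_add]; exact add_mem hy hz
        | smul g y _ hy =>
          have h4 := range_gen_perfect (ω.comp (algebraMap (Rp p k r) d.C))
            (fun l => (hωker _).mpr (Ideal.subset_span ⟨l, rfl⟩))
            ((Ideal.Quotient.mk (RingHom.ker (ccV d))).comp f.toRingHom).range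
            (fun y => by
              obtain ⟨s, rfl⟩ := hκs y
              refine ⟨algebraMap S _ s, ?_⟩
              change Ideal.Quotient.mk _ (f (algebraMap S _ s)) = ω (kC p k r d.C (κ s))
              rw [f.commutes, hωk])
            (fun e l => ⟨rx p S a l e, by
              change Ideal.Quotient.mk _ (f (rx p S a l e)) =
                ω (algebraMap (Rp p k r) d.C (rt p e (xp p k r l)))
              rw [rt_map, ← hωr]
              rfl⟩) g
          obtain ⟨z, hz⟩ := h4
          rw [Algebra.smul_def, map_mul]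
          change (ω.comp (algebraMap (Rp p k r) d.C)) g * ω y ∈ _
          rw [← hz]
          change Ideal.Quotient.mk _ (f z) * ω y ∈ _
          rw [← hsm]
          exact Submodule.smul_mem _ _ hy
      rw [← hc x]
      exact h3 _ (hv (Finset.mem_coe.mpr (Finset.mem_image_of_mem c (Finset.mem_coe.mp hx))))
  -- lower bound
  have hlow : 1 ≤ T.lam N := by
    refine one_le_lam T (1 : N) fun i => ?_
    obtain ⟨F, e⟩ := i
    have hq : 0 < p ^ e := pow_pos (Fact.out : p.Prime).pos e
    refine ⟨ULift.{u} (F → Fin (p ^ e)), inferInstance, fun φ =>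
      (tB F (p ^ e) hq φ.down).1.prod fun i m => rx p S a i e ^ m, ?_, fun φ => ?_, fun c hc => ?_⟩
    · rw [hT2, Fintype.card_ulift, Fintype.card_fun, Fintype.card_fin, Fintype.card_coe, pow_mul]
    · rw [hT1]
      exact prod_mem fun i hi => pow_mem (rx_mem_rsub p S a (tB_support F _ hq φ.down i hi)) _
    · let _ : Algebra k (d.C ⧸ vI p k r d.C) := (kCb p k r d.C).toAlgebra
      have h3 := (li_k d e).comp (fun φ : ULift.{u} (F → Fin (p ^ e)) => tB F (p ^ e) hq φ.down)
        (fun φ φ' h => ULift.ext _ _ (tB_injective F _ hq h))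
      have h4 : ∑ j, κ (c j) • (Ideal.Quotient.mk (vI p k r d.C)
          (∏ l, rt p e (vC p k r d.C l) ^ (tB F (p ^ e) hq j.down).1 l)) = 0 := by
        have h5 := congrArg (RingHom.quotientKerEquivOfSurjective (ccV_surjective d)) hc
        rw [map_zero, map_sum] at h5
        rw [← h5]
        refine Finset.sum_congr rfl fun j _ => ?_
        rw [hsmS, hsm, mul_one, ← map_mul, Algebra.smul_def]
        have e1 : RingHom.quotientKerEquivOfSurjective (ccV_surjective d)
            (Ideal.Quotient.mk (RingHom.ker (ccV d)) (algebraMap S W (c j) *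
              f ((tB F (p ^ e) hq j.down).1.prod fun i m => rx p S a i e ^ m))) =
            ccV d (algebraMap S W (c j) *
              f ((tB F (p ^ e) hq j.down).1.prod fun i m => rx p S a i e ^ m)) := rfl
        rw [e1, map_mul, hccS]
        refine congrArg₂ _ rfl ?_
        rw [map_finsuppProd, map_finsuppProd, Finsupp.prod_fintype _ _ (fun i => by simp), map_prod]
        refine Finset.prod_congr rfl fun l _ => ?_
        rw [map_pow, map_pow, map_pow, hf]
        change _ = (Ideal.Quotient.mk _ (WittVector.constantCoeff _)) ^ _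
        rw [WittVector.constantCoeff_apply, WittVector.teichmuller_coeff_zero]
      have h6 := Fintype.linearIndependent_iff.mp h3 (fun j => κ (c j)) h4
      intro j
      rw [← hκm, RingHom.mem_ker]
      exact h6 j
  have h0 : T.lam N ≠ 0 := fun h => by
    rw [h] at hlow
    exact absurd hlow (by simp)
  have htop : T.lam N ≠ ⊤ := ne_top_of_le_ne_top (ENNReal.natCast_ne_top r0) hup
  refine ⟨(T.totLen W).divc (T.lam N), ?_⟩
  change (T.totLen W).len N / _ = 1
  rw [hL0, ENNReal.div_self h0 htop]

end Vale.Agent.P177.Pos
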